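import Vale.Agent.DirFin.Stable

/-!
# P194: direct finiteness of group algebras in positive characteristic
-/

namespace Vale.Agent.Results.P194.ExtensionUniform

universe u v

/-- The group `N` is residually a finite `p`-group. -/
def ResiduallyFinitePGroup (p : ℕ) (N : Type u) [Group N] : Prop :=
  ∀ x : N, x ≠ 1 → ∃ (Q : Type) (_ : Group Q) (_ : Finite Q) (f : N →* Q), IsPGroup p Q ∧ f x ≠ 1

/-- The subgroup `N` of `G` is residually a finite `p`-group through normal subgroups of the big
group `G`: every `x ≠ 1` in `N` lies outside some normal subgroup `M ≤ N` of `G` such that `N / M`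
is a finite `p`-group. -/
def SeparatedInAmbient (p : ℕ) {G : Type u} [Group G] (N : Subgroup G) : Prop :=
  ∀ x ∈ N, x ≠ 1 → ∃ M : Subgroup G, M.Normal ∧ M ≤ N ∧ M.relIndex N ≠ 0 ∧
    (∀ y ∈ N, ∃ k : ℕ, y ^ p ^ k ∈ M) ∧ x ∉ M

theorem result :
    -- (1) in characteristic `p`, direct and stable finiteness pass from `K[G/N]` to `K[G]`
    (∀ (p : ℕ) [Fact p.Prime] (K : Type v) [Field K] [CharP K p] (G : Type u) [Group G]
      (N : Subgroup G) [N.Normal], SeparatedInAmbient p N →
        (IsDedekindFiniteMonoid (MonoidAlgebra K (G ⧸ N)) →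
          IsDedekindFiniteMonoid (MonoidAlgebra K G)) ∧
        (IsStablyFiniteRing (MonoidAlgebra K (G ⧸ N)) →
          IsStablyFiniteRing (MonoidAlgebra K G))) ∧
    -- (2) the hypothesis holds for every finitely generated residually-`p` normal subgroup
    (∀ (p : ℕ) (G : Type u) [Group G] (N : Subgroup G) [N.Normal],
      N.FG → ResiduallyFinitePGroup p N → SeparatedInAmbient p N) ∧
    -- (3) unconditional form for residually finite quotients, arbitrary fields
    (∀ (K : Type v) [Field K] (G : Type u) [Group G] (N : Subgroup G) [N.Normal], N.FG →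
      (∀ p : ℕ, p.Prime → (p : K) = 0 → ResiduallyFinitePGroup p N) →
        Group.ResiduallyFinite (G ⧸ N) → IsStablyFiniteRing (MonoidAlgebra K G)) ∧
    -- (4) for each support size and matrix size, all but finitely many characteristics are fine,
    -- uniformly in the group and in the field
    (∀ n m : ℕ, ∃ N₀ : ℕ, ∀ p : ℕ, N₀ < p → p.Prime →
      ∀ (K : Type v) [Field K] [CharP K p] (G : Type u) [Group G]
        (A B : Matrix (Fin m) (Fin m) (MonoidAlgebra K G)),
        (∀ i j, (A i j).coeff.support.card ≤ n) → (∀ i j, (B i j).coeff.support.card ≤ n) →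
        A * B = 1 → B * A = 1) := by
  refine ⟨?_, ?_, ?_, ?_⟩
  · intro p _ K _ _ G _ N _ hN
    have hp : (p : K) = 0 := CharP.cast_eq_zero K p
    refine ⟨fun h => ⟨fun {a b} hab => ?_⟩, fun h => ?_⟩
    · exact DirFin.DF.of_resP hp hN (fun a b hab => h.mul_eq_one_symm hab) a b hab
    · rw [DirFin.stablyFinite_iff] at h ⊢
      exact fun n => DirFin.DF.of_resP (DirFin.natCast_matrix_eq_zero hp) hN (h n)
  · intro p G _ N _ hfg hres
    exact DirFin.resP_of_fg hfg hres
  · intro K _ G _ N _ hfg hres hRF
    rw [DirFin.stablyFinite_iff]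
    intro n
    obtain ⟨p, hp⟩ := CharP.exists K
    rcases CharP.char_is_prime_or_zero K p with h1 | h1
    · have : Fact p.Prime := ⟨h1⟩
      have hp0 : (p : K) = 0 := CharP.cast_eq_zero K p
      exact DirFin.DF.of_resP (DirFin.natCast_matrix_eq_zero hp0)
        (DirFin.resP_of_fg hfg (hres p h1 hp0)) DirFin.DF.of_residuallyFinite
    · subst h1
      have : CharZero K := CharP.charP_to_charZero K
      exact DirFin.DF_char_zero
  · intro n m
    exact DirFin.uniform_matrix n m

end Vale.Agent.Results.P194.ExtensionUniform
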